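import Vale.Agent.P194.H798.Main

/-!
P194: Kaplansky's direct finiteness conjecture fails for a finitely presented torsion-free
word-hyperbolic group, for all groups containing it and over all nontrivial rings of
characteristic 2; all these groups are neither sofic nor surjunctive.
-/

universe u v

/-- there is a finitely presented torsion-free word-hyperbolic group `G` such that every group `H`
containing `G` is neither sofic nor surjunctive, and for every nontrivial ring `K` of
characteristic 2 the group ring `K[H]` is not directly finite -/
theorem Vale.Agent.Results.P194.HyperbolicNonSofic.result :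
    ∃ (G : Type) (_ : Group G),
      (∀ g : G, ∀ m : ℕ, 0 < m → g ^ m = 1 → g = 1) ∧
      Group.IsFinitelyPresented G ∧
      Vale.Agent.P186.IsHyperbolicGroup G ∧
      ∀ (H : Type v) [Group H] (i : G →* H), Function.Injective i →
        ¬ Vale.Agent.P194.IsSofic H ∧ ¬ Vale.Agent.P194.IsSurjunctive H ∧
        ∀ (K : Type u) [Ring K] [Nontrivial K] [CharP K 2],
          ∃ a b : MonoidAlgebra K H, a * b = 1 ∧ b * a ≠ 1 :=
  Vale.Agent.P194.H798.main
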