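import Vale.Agent.P194.H493.Final

/-!
P194: Kaplansky's direct finiteness conjecture fails, with one pair of finite subsets `A`, `B` of a
finitely presented torsion-free group `G`. In every group ring `K[H]` of characteristic 2 of every
group `H` containing `G` their sums `a`, `b` satisfy `a * b = 1`, `b * a ≠ 1`, and the words
`b ^ i * a ^ j` are linearly independent, so that the Jacobson algebra embeds.
-/

universe u v w

open Vale.Agent.P194.H493 in
/-- (1) a group algebra over a field which is not directly finite; (2) the strong form -/
theorem Vale.Agent.Results.P194.JacobsonAlgebra.result :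
    (∃ (K : Type) (_ : Field K) (G : Type) (_ : Group G) (a b : MonoidAlgebra K G),
      a * b = 1 ∧ b * a ≠ 1) ∧
    ∃ (G : Type) (_ : Group G) (A B : Finset G),
      (∀ g : G, ∀ m : ℕ, 0 < m → g ^ m = 1 → g = 1) ∧ Group.IsFinitelyPresented G ∧
      ∀ (H : Type v) [Group H] (i : G →* H), Function.Injective i →
        (∀ (K : Type u) [Ring K] [Nontrivial K] [CharP K 2],
          IsJacobsonPair K (groupSum K i A) (groupSum K i B) ∧
          ContainsMatrices K (MonoidAlgebra K H) ∧
          UnitsContainFiniteGroups (MonoidAlgebra K H)) ∧
        ∀ (M : Type w) [AddCommGroup M] [Nontrivial M], (∀ m : M, m + m = 0) →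
          (Function.Injective (shiftSum i M B) ∧ ¬ Function.Surjective (shiftSum i M B)) ∧
          Function.Surjective (shiftSum i M A) ∧ ¬ Function.Injective (shiftSum i M A) := by
  refine ⟨?_, Vale.Agent.P194.H493.main⟩
  obtain ⟨G, _, _, _, a, b, hab, hba⟩ := Vale.Agent.P194.H493.exists_pair
  exact ⟨ZMod 2, inferInstance, G, inferInstance, a, b, hab, hba⟩
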